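import Vale.Agent.P284.H940.Rank

/-!
# P284 / H940: `Spec_SG` (Siegel's lemma)

`≥ a kⁿ` sections of `kL` for arbitrarily large `k` give `n + 1` sections of some `mL` whose
quotients are local coordinates at some point.
-/

set_option linter.all false

open Metric Filter Topology Asymptotics Set
open Vale.Agent.P272.K Vale.Agent.P272.K.INT
open scoped Manifold ContDiff

noncomputable section

namespace Vale.Agent.P284.H940

open Vale.Agent.P284.H747

section

variable {n : ℕ} {X : Type*} [TopologicalSpace X] [ChartedSpace (Cm n) X]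
  {c : Chart n X → Chart n X → X → ℂ}

/-- finite cover by chart balls -/
theorem exists_cover5 [CompactSpace X] : ∃ (T : Finset X) (r : X → ℝ), (∀ a, 0 < r a) ∧
    (∀ a, closedBall (chartAt (Cm n) a a) (5 * r a) ⊆ (chartAt (Cm n) a).target) ∧
    ∀ x, ∃ a ∈ T, x ∈ (chartAt (Cm n) a).source ∧
      chartAt (Cm n) a x ∈ ball (chartAt (Cm n) a a) (r a) := by
  have h1 : ∀ a : X, ∃ r : ℝ, 0 < r ∧
      closedBall (chartAt (Cm n) a a) (5 * r) ⊆ (chartAt (Cm n) a).target := by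
    intro a
    obtain ⟨ρ, hρ, h⟩ := Metric.isOpen_iff.1 (chartAt (Cm n) a).open_target _
      (mem_chart_target (Cm n) a)
    refine ⟨ρ / 10, by positivity, (closedBall_subset_ball ?_).trans h⟩
    linarith
  choose r hr hb using h1
  let V : X → Set X := fun a => (chartAt (Cm n) a).source ∩
    chartAt (Cm n) a ⁻¹' ball (chartAt (Cm n) a a) (r a)
  have hV : ∀ a ∈ (Set.univ : Set X), V a ∈ 𝓝 a := by
    intro a _
    have h2 : IsOpen (V a) := (chartAt (Cm n) a).isOpen_inter_preimage isOpen_ball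
    exact h2.mem_nhds ⟨mem_chart_source (Cm n) a, mem_ball_self (hr a)⟩
  obtain ⟨T, -, hT⟩ := (isCompact_univ (X := X)).elim_nhds_subcover V hV
  refine ⟨T, r, hr, hb, fun x => ?_⟩
  have := hT (Set.mem_univ x)
  simp only [Set.mem_iUnion] at this
  obtain ⟨a, ha, hx⟩ := this
  exact ⟨a, ha, hx.1, hx.2⟩

theorem IsCoc.cont (hc : IsCoc c) {e e' : Chart n X} {x : X} (hx : At e x) (hx' : At e' x) :
    ContinuousAt (c e e') x := by
  have h1 : ContinuousAt (fun z => c e e' (e.symm z)) (e x) := (hc.an e e' x hx hx').continuousAt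
  have h2 : ContinuousAt e x := e.continuousAt hx.2
  have h3 : ContinuousAt (fun y => c e e' (e.symm (e y))) x :=
    ContinuousAt.comp (g := fun z => c e e' (e.symm z)) h1 h2
  refine h3.congr ?_
  filter_upwards [e.open_source.mem_nhds hx.2] with y hy
  rw [e.left_inv hy]

/-- bound for the transition functions -/
theorem exists_bound [T2Space X] [CompactSpace X] (hc : IsCoc c) (T : Finset X) (r : X → ℝ)
    (hr : ∀ a, 0 < r a)
    (hb : ∀ a, closedBall (chartAt (Cm n) a a) (5 * r a) ⊆ (chartAt (Cm n) a).target) :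
    ∃ m0 : ℕ, ∀ a ∈ T, ∀ b ∈ T, ∀ x,
      x ∈ (chartAt (Cm n) a).source → x ∈ (chartAt (Cm n) b).source →
      chartAt (Cm n) a x ∈ closedBall (chartAt (Cm n) a a) (5 * r a) →
      chartAt (Cm n) b x ∈ closedBall (chartAt (Cm n) b b) (r b) →
      ‖c (chartAt (Cm n) b) (chartAt (Cm n) a) x‖ ≤ 2 ^ m0 := by
  have hAt : ∀ a : X, ∀ z ∈ (chartAt (Cm n) a).target,
      At (chartAt (Cm n) a : Chart n X) ((chartAt (Cm n) a).symm z) := fun a z hz =>
    ⟨chart_mem_atlas (Cm n) a, (chartAt (Cm n) a).map_target hz⟩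
  have h1 : ∀ a b : X, ∃ M : ℝ, 0 ≤ M ∧ ∀ x,
      x ∈ (chartAt (Cm n) a).source → x ∈ (chartAt (Cm n) b).source →
      chartAt (Cm n) a x ∈ closedBall (chartAt (Cm n) a a) (5 * r a) →
      chartAt (Cm n) b x ∈ closedBall (chartAt (Cm n) b b) (r b) →
      ‖c (chartAt (Cm n) b) (chartAt (Cm n) a) x‖ ≤ M := by
    intro a b
    let K : Set X := (chartAt (Cm n) a).symm '' closedBall (chartAt (Cm n) a a) (5 * r a) ∩
      (chartAt (Cm n) b).symm '' closedBall (chartAt (Cm n) b b) (r b)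
    have hb' : closedBall (chartAt (Cm n) b b) (r b) ⊆ (chartAt (Cm n) b).target :=
      (closedBall_subset_closedBall (by linarith [hr b])).trans (hb b)
    have hK1 : IsCompact
        ((chartAt (Cm n) a).symm '' closedBall (chartAt (Cm n) a a) (5 * r a)) :=
      (isCompact_closedBall _ _).image_of_continuousOn
        ((chartAt (Cm n) a).continuousOn_symm.mono (hb a))
    have hK2 : IsCompact ((chartAt (Cm n) b).symm '' closedBall (chartAt (Cm n) b b) (r b)) :=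
      (isCompact_closedBall _ _).image_of_continuousOn
        ((chartAt (Cm n) b).continuousOn_symm.mono hb')
    have hK : IsCompact K := hK1.inter hK2
    have hc' : ContinuousOn (c (chartAt (Cm n) b) (chartAt (Cm n) a)) K := by
      rintro x ⟨⟨z, hz, rfl⟩, ⟨w, hw, hwx⟩⟩
      refine (IsCoc.cont hc ?_ (hAt a z (hb a hz))).continuousWithinAt
      rw [← hwx]
      exact hAt b w (hb' hw)
    obtain ⟨M, hM⟩ := hK.exists_bound_of_continuousOn hc'
    refine ⟨|M|, abs_nonneg _, fun x hxa hxb h1 h2 => (hM x ⟨⟨_, h1, ?_⟩, ⟨_, h2, ?_⟩⟩).trans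
      (le_abs_self M)⟩
    · exact (chartAt (Cm n) a).left_inv hxa
    · exact (chartAt (Cm n) b).left_inv hxb
  choose M hM0 hM using h1
  obtain ⟨m0, hm0⟩ := pow_unbounded_of_one_lt (∑ a ∈ T, ∑ b ∈ T, M a b) (one_lt_two)
  refine ⟨m0, fun a ha b hb x h1 h2 h3 h4 => ?_⟩
  refine ((hM a b x h1 h2 h3 h4).trans ?_).trans hm0.le
  have h5 : M a b ≤ ∑ b ∈ T, M a b :=
    Finset.single_le_sum (f := fun b => M a b) (fun b _ => hM0 a b) hb
  have h6 : ∑ b ∈ T, M a b ≤ ∑ a ∈ T, ∑ b ∈ T, M a b :=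
    Finset.single_le_sum (f := fun a => ∑ b ∈ T, M a b)
      (fun a _ => Finset.sum_nonneg fun b _ => hM0 a b) ha
  exact h5.trans h6

/-- a section which vanishes to high order at the centers is zero -/
theorem eq_zero_of_isBigO (T : Finset X) (r : X → ℝ)
    (hr : ∀ a, 0 < r a)
    (hb : ∀ a, closedBall (chartAt (Cm n) a a) (5 * r a) ⊆ (chartAt (Cm n) a).target)
    (hcov : ∀ x, ∃ a ∈ T, x ∈ (chartAt (Cm n) a).source ∧
      chartAt (Cm n) a x ∈ ball (chartAt (Cm n) a a) (r a)) (hc : IsCoc c) (m0 : ℕ)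
    (hM : ∀ a ∈ T, ∀ b ∈ T, ∀ x,
      x ∈ (chartAt (Cm n) a).source → x ∈ (chartAt (Cm n) b).source →
      chartAt (Cm n) a x ∈ closedBall (chartAt (Cm n) a a) (5 * r a) →
      chartAt (Cm n) b x ∈ closedBall (chartAt (Cm n) b b) (r b) →
      ‖c (chartAt (Cm n) b) (chartAt (Cm n) a) x‖ ≤ 2 ^ m0) {k : ℕ}
    {F : Chart n X → Cm n → ℂ} (hF : IsHol c k F)
    (hv : ∀ a ∈ T, ∃ z₀ ∈ ball (chartAt (Cm n) a a) (r a),
      F (chartAt (Cm n) a) =O[𝓝 z₀] fun z => ‖z - z₀‖ ^ (m0 * k + 1)) :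
    ∀ e x, At e x → F e (e x) = 0 := by
  have hAt : ∀ a : X, ∀ z ∈ (chartAt (Cm n) a).target,
      At (chartAt (Cm n) a : Chart n X) ((chartAt (Cm n) a).symm z) := fun a z hz =>
    ⟨chart_mem_atlas (Cm n) a, (chartAt (Cm n) a).map_target hz⟩
  have hFb : ∀ a, AnalyticOnNhd ℂ (F (chartAt (Cm n) a)) (chartAt (Cm n) a).target :=
    fun a z hz => IsHol.an hF (chart_mem_atlas (Cm n) a) hz
  -- one step
  have hstep : ∀ B : ℝ, (∀ a ∈ T, ∀ z ∈ ball (chartAt (Cm n) a a) (r a),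
      ‖F (chartAt (Cm n) a) z‖ ≤ B) →
      ∀ a ∈ T, ∀ z ∈ ball (chartAt (Cm n) a a) (r a), ‖F (chartAt (Cm n) a) z‖ ≤ B / 2 := by
    intro B hB a ha
    have hB0 : 0 ≤ B := (norm_nonneg _).trans (hB a ha _ (mem_ball_self (hr a)))
    have h1 : ∀ z ∈ ball (chartAt (Cm n) a a) (5 * r a),
        ‖F (chartAt (Cm n) a) z‖ ≤ (2 ^ m0) ^ k * B := by
      intro z hz
      have hzt : z ∈ (chartAt (Cm n) a).target := hb a (ball_subset_closedBall hz)
      obtain ⟨b, hbT, hxb, hxb'⟩ := hcov ((chartAt (Cm n) a).symm z)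
      have h2 := hF.change (chartAt (Cm n) b) (chartAt (Cm n) a) _
        ⟨chart_mem_atlas (Cm n) b, hxb⟩ (hAt a z hzt)
      rw [(chartAt (Cm n) a).right_inv hzt] at h2
      rw [← h2, norm_mul, norm_pow]
      have h3 : ‖c (chartAt (Cm n) b) (chartAt (Cm n) a) ((chartAt (Cm n) a).symm z)‖ ≤
          2 ^ m0 := by
        refine hM a ha b hbT _ ((chartAt (Cm n) a).map_target hzt) hxb ?_
          (ball_subset_closedBall hxb')
        rw [(chartAt (Cm n) a).right_inv hzt]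
        exact ball_subset_closedBall hz
      have h4 := hB b hbT _ hxb'
      gcongr
    obtain ⟨z₀, hz₀, hO⟩ := hv a ha
    have hsub : ball z₀ (4 * r a) ⊆ ball (chartAt (Cm n) a a) (5 * r a) := by
      refine ball_subset_ball' ?_
      have := (mem_ball.1 hz₀).le
      linarith
    intro z hz
    have hzz : dist z z₀ < 2 * r a := by
      have h5 := dist_triangle_right z z₀ (chartAt (Cm n) a a)
      have h6 := mem_ball.1 hz
      have h7 := mem_ball.1 hz₀
      linarith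
    have h2 := schwarz (h := m0 * k) (c := z₀) (R := 4 * r a) (M := (2 ^ m0) ^ k * B)
      (f := F (chartAt (Cm n) a))
      (fun w hw => hFb a w (hb a (ball_subset_closedBall (hsub hw))))
      (fun w hw => h1 w (hsub hw)) hO z (by
        rw [mem_ball]
        linarith [hr a])
    refine h2.trans ?_
    have h3 : dist z z₀ / (4 * r a) ≤ 1 / 2 := by
      rw [div_le_iff₀ (by linarith [hr a])]
      linarith
    have h4 : (dist z z₀ / (4 * r a)) ^ (m0 * k + 1) ≤ (1 / 2) ^ (m0 * k + 1) :=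
      pow_le_pow_left₀ (by have := hr a; positivity) h3 _
    calc (2 ^ m0) ^ k * B * (dist z z₀ / (4 * r a)) ^ (m0 * k + 1)
        ≤ (2 ^ m0) ^ k * B * (1 / 2) ^ (m0 * k + 1) := by gcongr
      _ = B / 2 := by
        rw [← pow_mul, one_div, inv_pow, pow_succ]
        field_simp
  -- F = 0
  have hF0 : ∀ a ∈ T, ∀ z ∈ ball (chartAt (Cm n) a a) (r a), F (chartAt (Cm n) a) z = 0 := by
    have h1 : ∃ B : ℝ, ∀ a ∈ T, ∀ z ∈ ball (chartAt (Cm n) a a) (r a),
        ‖F (chartAt (Cm n) a) z‖ ≤ B := by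
      have h2 : ∀ a : X, ∃ B : ℝ, 0 ≤ B ∧ ∀ z ∈ ball (chartAt (Cm n) a a) (r a),
          ‖F (chartAt (Cm n) a) z‖ ≤ B := by
        intro a
        have h3 : ContinuousOn (F (chartAt (Cm n) a))
            (closedBall (chartAt (Cm n) a a) (5 * r a)) := fun z hz =>
          ((hFb a z (hb a hz)).continuousAt).continuousWithinAt
        obtain ⟨B, hB⟩ := (isCompact_closedBall _ _).exists_bound_of_continuousOn h3
        refine ⟨|B|, abs_nonneg _, fun z hz => (hB z ?_).trans (le_abs_self B)⟩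
        exact closedBall_subset_closedBall (by linarith [hr a]) (ball_subset_closedBall hz)
      choose B hB0 hB using h2
      refine ⟨∑ a ∈ T, B a, fun a ha z hz => (hB a z hz).trans ?_⟩
      exact Finset.single_le_sum (f := B) (fun a _ => hB0 a) ha
    obtain ⟨B, hB⟩ := h1
    have h2 : ∀ k : ℕ, ∀ a ∈ T, ∀ z ∈ ball (chartAt (Cm n) a a) (r a),
        ‖F (chartAt (Cm n) a) z‖ ≤ B / 2 ^ k := by
      intro k
      induction k with
      | zero => simpa using hB
      | succ k ih =>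
        have := hstep _ ih
        intro a ha z hz
        refine (this a ha z hz).trans (le_of_eq ?_)
        rw [pow_succ]
        field_simp
    intro a ha z hz
    have h3 : Tendsto (fun k : ℕ => B / 2 ^ k) atTop (𝓝 0) := by
      have := (tendsto_pow_atTop_nhds_zero_of_lt_one (r := (1 / 2 : ℝ)) (by norm_num)
        (by norm_num)).const_mul B
      simpa [div_eq_mul_inv] using this
    have h4 := ge_of_tendsto' h3 fun k => h2 k a ha z hz
    exact norm_le_zero_iff.1 h4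
  intro e x hx
  obtain ⟨a, ha, hxa, hxa'⟩ := hcov x
  have h1 := hF.change (chartAt (Cm n) a) e x ⟨chart_mem_atlas (Cm n) a, hxa⟩ hx
  rw [← h1, hF0 a ha _ hxa', mul_zero]

/-- counting -/
theorem exists_k (N m0 p n : ℕ) (hp : p < n) {a : ℝ} (ha : 0 < a) :
    ∃ k₀ : ℕ, ∀ k : ℕ, k₀ ≤ k → ∀ N' : ℕ, a * (k : ℝ) ^ n ≤ N' →
      N * (m0 * k + 1) ^ p < N' := by
  obtain ⟨q, hq⟩ := exists_nat_gt (N * (m0 + 1) ^ p / a : ℝ)
  refine ⟨q + 1, fun k hk N' hN' => ?_⟩
  have hk1 : 1 ≤ k := by omega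
  have hkR : (1 : ℝ) ≤ k := by exact_mod_cast hk1
  have h1 : (m0 * k + 1 : ℝ) ≤ (m0 + 1) * k := by nlinarith
  have h2 : (N : ℝ) * (m0 + 1) ^ p < a * k := by
    rw [div_lt_iff₀ ha] at hq
    have h3 : (q : ℝ) ≤ k := by exact_mod_cast (by omega : q ≤ k)
    nlinarith
  have h3 : (N : ℝ) * (m0 * k + 1) ^ p < N' := by
    calc (N : ℝ) * (m0 * k + 1) ^ p ≤ N * ((m0 + 1) * k) ^ p := by gcongr
      _ = (N * (m0 + 1) ^ p) * k ^ p := by rw [mul_pow]; ring
      _ < (a * k) * k ^ p := by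
        have : (0 : ℝ) < (k : ℝ) ^ p := by positivity
        exact mul_lt_mul_of_pos_right h2 this
      _ = a * k ^ (p + 1) := by ring
      _ ≤ a * k ^ n := by
        have : (k : ℝ) ^ (p + 1) ≤ k ^ n := pow_le_pow_right₀ hkR (by omega)
        gcongr
      _ ≤ N' := hN'
  exact_mod_cast h3

/-- the extended family of sections -/
def ext {p : ℕ} (σ : Fin (p + 1) → Chart n X → Cm n → ℂ) (s₀ F : Chart n X → Cm n → ℂ) :
    Fin (p + 1 + 1) → Chart n X → Cm n → ℂ :=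
  Fin.snoc (α := fun _ => Chart n X → Cm n → ℂ) (fun i e z => σ i e z * s₀ e z)
    (fun e z => σ 0 e z * F e z)

theorem ext_castSucc {p : ℕ} (σ : Fin (p + 1) → Chart n X → Cm n → ℂ)
    (s₀ F : Chart n X → Cm n → ℂ) (i : Fin (p + 1)) :
    ext σ s₀ F i.castSucc = fun e z => σ i e z * s₀ e z := by
  simp [ext, Fin.snoc_castSucc]

theorem ext_last {p : ℕ} (σ : Fin (p + 1) → Chart n X → Cm n → ℂ)
    (s₀ F : Chart n X → Cm n → ℂ) :
    ext σ s₀ F (Fin.last (p + 1)) = fun e z => σ 0 e z * F e z := by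
  simp [ext, Fin.snoc_last]

theorem ext_hol {p m k : ℕ} {σ : Fin (p + 1) → Chart n X → Cm n → ℂ}
    {s₀ F : Chart n X → Cm n → ℂ} (hσ : ∀ i, IsHol c m (σ i)) (hs : IsHol c k s₀)
    (hF : IsHol c k F) (i : Fin (p + 1 + 1)) : IsHol c (m + k) (ext σ s₀ F i) := by
  refine Fin.lastCases ?_ (fun i => ?_) i
  · rw [ext_last]
    exact IsHol.mul (hσ 0) hF
  · rw [ext_castSucc]
    exact IsHol.mul (hσ i) hs

theorem quo_ext_castSucc {p : ℕ} {σ : Fin (p + 1) → Chart n X → Cm n → ℂ}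
    {s₀ F : Chart n X → Cm n → ℂ} {e : Chart n X} {z : Cm n} (hs : s₀ e z ≠ 0) (i : Fin p) :
    quo (ext σ s₀ F) e z i.castSucc = quo σ e z i := by
  unfold quo
  have h1 : ext σ s₀ F (i.castSucc).succ = fun e z => σ i.succ e z * s₀ e z := by
    rw [Fin.succ_castSucc, ext_castSucc]
  have h2 : ext σ s₀ F 0 = fun e z => σ 0 e z * s₀ e z := ext_castSucc σ s₀ F 0
  rw [h1, h2]
  exact mul_div_mul_right _ _ hs

theorem quo_ext_last {p : ℕ} {σ : Fin (p + 1) → Chart n X → Cm n → ℂ}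
    {s₀ F : Chart n X → Cm n → ℂ} {e : Chart n X} {z : Cm n} (h0 : σ 0 e z ≠ 0) :
    quo (ext σ s₀ F) e z (Fin.last p) = F e z / s₀ e z := by
  unfold quo
  have h1 : ext σ s₀ F (Fin.last p).succ = fun e z => σ 0 e z * F e z := by
    rw [Fin.succ_last, ext_last]
  have h2 : ext σ s₀ F 0 = fun e z => σ 0 e z * s₀ e z := ext_castSucc σ s₀ F 0
  rw [h1, h2]
  exact mul_div_mul_left _ _ h0

/-- if the rank cannot be increased, `F / s₀` is a function of the quotients -/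
theorem kernel {p m k : ℕ} {σ : Fin (p + 1) → Chart n X → Cm n → ℂ}
    {s₀ F : Chart n X → Cm n → ℂ} (hσ : ∀ i, IsHol c m (σ i)) (hs : IsHol c k s₀)
    (hF : IsHol c k F) {e : Chart n X} (he : e ∈ atlas (Cm n) X)
    (hno : ∀ z ∈ e.target, ∀ v, ¬ Rk (ext σ s₀ F) e z v) {z₀ : Cm n} (hz₀ : z₀ ∈ e.target)
    {v : Fin p → Cm n} (hv : Rk σ e z₀ v) (hs₀ : s₀ e z₀ ≠ 0) :
    ∀ᶠ z in 𝓝 z₀, ∀ w, fderiv ℂ (quo σ e) z w = 0 →
      fderiv ℂ (fun z => F e z / s₀ e z) z w = 0 := by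
  filter_upwards [hv.eventually hσ he hz₀, e.open_target.mem_nhds hz₀,
    (IsHol.an hs he hz₀).continuousAt.eventually_ne hs₀] with z hz hzt hzs w hw
  by_contra hne
  refine hno z hzt (Fin.snoc (α := fun _ => Cm n) v w) ⟨?_, ?_⟩
  · have h2 : ext σ s₀ F 0 = fun e z => σ 0 e z * s₀ e z := ext_castSucc σ s₀ F 0
    rw [h2]
    exact mul_ne_zero hz.1 hzs
  · have hσ0 := hz.1
    -- the quotients near `z`
    have hn0 : ∀ᶠ y in 𝓝 z, σ 0 e y ≠ 0 :=
      (IsHol.an (hσ 0) he hzt).continuousAt.eventually_ne hσ0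
    have hns : ∀ᶠ y in 𝓝 z, s₀ e y ≠ 0 := (IsHol.an hs he hzt).continuousAt.eventually_ne hzs
    have hq := quo_an hσ he hzt hσ0
    have hFs : AnalyticAt ℂ (fun z => F e z / s₀ e z) z :=
      (IsHol.an hF he hzt).div (IsHol.an hs he hzt) hzs
    have hqe := quo_an (ext_hol hσ hs hF) he hzt (by
      have h2 : ext σ s₀ F 0 = fun e z => σ 0 e z * s₀ e z := ext_castSucc σ s₀ F 0
      rw [h2]
      exact mul_ne_zero hz.1 hzs)
    have hcomp : ∀ {q : ℕ} (f : Cm n → Fin q → ℂ), AnalyticAt ℂ f z → ∀ (i : Fin q) (w : Cm n),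
        fderiv ℂ f z w i = fderiv ℂ (fun z => f z i) z w := by
      intro q f hf i w
      have h5 : fderiv ℂ f z = ContinuousLinearMap.pi fun i =>
          fderiv ℂ (fun z => f z i) z :=
        fderiv_pi fun j => ((analyticAt_pi_iff.1 hf) j).differentiableAt
      rw [h5]
      rfl
    have h1 : ∀ (i : Fin p) (w : Cm n),
        fderiv ℂ (quo (ext σ s₀ F) e) z w i.castSucc = fderiv ℂ (quo σ e) z w i := by
      intro i w
      rw [hcomp _ hqe, hcomp _ hq]
      have h3 : (fun z => quo (ext σ s₀ F) e z i.castSucc) =ᶠ[𝓝 z] fun z => quo σ e z i := by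
        filter_upwards [hns] with y hy
        exact quo_ext_castSucc hy i
      rw [h3.fderiv_eq]
    have h2 : ∀ (w : Cm n), fderiv ℂ (quo (ext σ s₀ F) e) z w (Fin.last p) =
        fderiv ℂ (fun z => F e z / s₀ e z) z w := by
      intro w
      rw [hcomp _ hqe]
      have h3 : (fun z => quo (ext σ s₀ F) e z (Fin.last p)) =ᶠ[𝓝 z]
          fun z => F e z / s₀ e z := by
        filter_upwards [hn0] with y hy
        exact quo_ext_last hy
      rw [h3.fderiv_eq]
    rw [Matrix.det_succ_column _ (Fin.last p), Fin.sum_univ_castSucc]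
    have h3 : ∀ i : Fin p, (Matrix.of fun i j : Fin (p + 1) => fderiv ℂ (quo (ext σ s₀ F) e) z
        (Fin.snoc (α := fun _ => Cm n) v w j) i) i.castSucc (Fin.last p) = 0 := by
      intro i
      rw [Matrix.of_apply, Fin.snoc_last, h1, hw]
      rfl
    have h4 : (Matrix.of fun i j : Fin (p + 1) => fderiv ℂ (quo (ext σ s₀ F) e) z
        (Fin.snoc (α := fun _ => Cm n) v w j) i) (Fin.last p) (Fin.last p) =
        fderiv ℂ (fun z => F e z / s₀ e z) z w := by
      rw [Matrix.of_apply, Fin.snoc_last, h2]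
    have h5 : (Matrix.of fun i j : Fin (p + 1) => fderiv ℂ (quo (ext σ s₀ F) e) z
        (Fin.snoc (α := fun _ => Cm n) v w j) i).submatrix (Fin.last p).succAbove
        (Fin.last p).succAbove = Matrix.of fun i j : Fin p => fderiv ℂ (quo σ e) z (v j) i := by
      ext i j
      rw [Matrix.submatrix_apply, Matrix.of_apply, Matrix.of_apply, Fin.succAbove_last,
        Fin.snoc_castSucc, h1]
    rw [h4, h5]
    rw [Finset.sum_eq_zero fun i _ => by rw [h3 i]; ring, zero_add]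
    refine mul_ne_zero (mul_ne_zero ?_ hne) hz.2
    exact pow_ne_zero _ (neg_ne_zero.2 one_ne_zero)

/-- the rank can be increased -/
theorem step [T2Space X] [CompactSpace X] [PreconnectedSpace X] [Nonempty X]
    [IsManifold 𝓘(ℂ, Cm n) ω X] (hc : IsCoc c) {a : ℝ}
    (ha : 0 < a) (H : ∀ k₀ : ℕ, ∃ k : ℕ, k₀ ≤ k ∧ ∃ (N : ℕ) (s : Fin N → Chart n X → Cm n → ℂ),
      a * (k : ℝ) ^ n ≤ N ∧ (∀ i, IsHol c k (s i)) ∧ LI s) {p m : ℕ} (hp : p < n) (hm : 1 ≤ m)
    {σ : Fin (p + 1) → Chart n X → Cm n → ℂ} (hσ : ∀ i, IsHol c m (σ i))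
    (hR : ∃ e x, At e x ∧ ∃ v, Rk σ e (e x) v) :
    ∃ m' : ℕ, 1 ≤ m' ∧ ∃ σ' : Fin (p + 1 + 1) → Chart n X → Cm n → ℂ,
      (∀ i, IsHol c m' (σ' i)) ∧ ∃ e x, At e x ∧ ∃ v, Rk σ' e (e x) v := by
  classical
  by_contra hno
  push Not at hno
  obtain ⟨e₀, x₀, hx₀, v₀, hR₀⟩ := hR
  obtain ⟨T, r, hr, hb, hcov⟩ := exists_cover5 (n := n) (X := X)
  obtain ⟨m0, hM⟩ := exists_bound hc T r hr hb
  obtain ⟨k₀, hk₀⟩ := exists_k T.card m0 p n hp ha
  obtain ⟨k, hk, N, s, hN, hs, hLI⟩ := H (k₀ + 1)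
  have hcount := hk₀ k (by omega) N hN
  have hk1 : 1 ≤ k := by omega
  have hT : T.Nonempty := by
    obtain ⟨a, ha, -⟩ := hcov (Classical.arbitrary X)
    exact ⟨a, ha⟩
  have hN0 : 0 < N := by omega
  set s₀ := s ⟨0, hN0⟩ with hs₀def
  have hs₀ : IsHol c k s₀ := hs _
  have hs₀ne : ∃ e x, At e x ∧ s₀ e (e x) ≠ 0 := by
    by_contra h
    push Not at h
    have h1 := hLI (Pi.single ⟨0, hN0⟩ 1) (fun e x hx => by
      rw [Finset.sum_eq_single ⟨0, hN0⟩]
      · rw [Pi.single_eq_same, one_mul]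
        exact h e x hx
      · intro i _ hi
        rw [Pi.single_eq_of_ne hi, zero_mul]
      · intro h'
        exact absurd (Finset.mem_univ _) h')
    have h2 := congrFun h1 ⟨0, hN0⟩
    rw [Pi.single_eq_same] at h2
    exact one_ne_zero h2
  -- centers
  have hcen : ∀ a : X, ∃ z₀ ∈ ball (chartAt (Cm n) a a) (r a), ∃ v,
      Rk σ (chartAt (Cm n) a) z₀ v ∧ s₀ (chartAt (Cm n) a) z₀ ≠ 0 := by
    intro a
    set e := chartAt (Cm n) a with he
    have hea : At (e : Chart n X) a := ⟨chart_mem_atlas (Cm n) a, mem_chart_source (Cm n) a⟩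
    have hWo : IsOpen (e.source ∩ e ⁻¹' ball (e a) (r a)) := e.isOpen_inter_preimage isOpen_ball
    have haW : a ∈ e.source ∩ e ⁻¹' ball (e a) (r a) := ⟨hea.2, mem_ball_self (hr a)⟩
    obtain ⟨y, ⟨hys, hyb⟩, hy⟩ := Rk.dense hc hσ hx₀ hR₀ a (hWo.mem_nhds haW)
    obtain ⟨v, hv⟩ := hy e ⟨hea.1, hys⟩
    have h1 := hv.eventually hσ hea.1 (e.map_source hys)
    have h2 : ∀ᶠ y' in 𝓝 y, Rk σ e (e y') v := (e.continuousAt hys).eventually h1
    have h3 : ∀ᶠ y' in 𝓝 y, y' ∈ e.source ∩ e ⁻¹' ball (e a) (r a) := hWo.mem_nhds ⟨hys, hyb⟩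
    -- density of the set where `s₀` does not vanish
    obtain ⟨e₁, x₁, hx₁, hs₁⟩ := hs₀ne
    have h4 : Rk (p := 0) (fun _ => s₀) e₁ (e₁ x₁) (fun i => i.elim0) := by
      refine ⟨hs₁, ?_⟩
      rw [Matrix.det_isEmpty]
      exact one_ne_zero
    obtain ⟨y', ⟨hy'1, hy'2⟩, hy'3⟩ := Rk.dense (p := 0) hc (fun _ => hs₀) hx₁ h4 y
      (Filter.inter_mem h2 h3)
    obtain ⟨v', hv'⟩ := hy'3 e ⟨hea.1, hy'2.1⟩
    exact ⟨e y', hy'2.2, v, hy'1, hv'.1⟩
  choose z₀ hz₀ v hv hsv using hcen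
  have hz₀t : ∀ a, z₀ a ∈ (chartAt (Cm n) a).target := fun a =>
    hb a (closedBall_subset_closedBall (by linarith [hr a]) (ball_subset_closedBall (hz₀ a)))
  have hsec : ∀ a : X, ∃ Θ : (Fin p → ℂ) → Cm n, AnalyticAt ℂ Θ 0 ∧ Θ 0 = z₀ a ∧
      ∀ (u : Cm n → ℂ) (h : ℕ), AnalyticAt ℂ u (z₀ a) →
      (∀ᶠ z in 𝓝 (z₀ a), ∀ w, fderiv ℂ (quo σ (chartAt (Cm n) a)) z w = 0 →
        fderiv ℂ u z w = 0) →
      (∀ α : Fin p → Fin h, Vale.Agent.P299.H908.jet α 0 (fun t => u (Θ t)) = 0) →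
      u =O[𝓝 (z₀ a)] fun z => ‖z - z₀ a‖ ^ h := fun a =>
    exists_section' (quo_an hσ (chart_mem_atlas (Cm n) a) (hz₀t a) (hv a).1) (v a) (hv a).2
  choose Θ hΘ hΘ0 hΘu using hsec
  set h := m0 * k + 1 with hh
  let f : Fin N → X → (Fin p → ℂ) → ℂ := fun i a t =>
    s i (chartAt (Cm n) a) (Θ a t) / s₀ (chartAt (Cm n) a) (Θ a t)
  have hf : ∀ i a, AnalyticAt ℂ (f i a) 0 := by
    intro i a
    have h1 : AnalyticAt ℂ (fun z => s i (chartAt (Cm n) a) z / s₀ (chartAt (Cm n) a) z)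
        (Θ a 0) := by
      rw [hΘ0]
      exact (IsHol.an (hs i) (chart_mem_atlas (Cm n) a) (hz₀t a)).div
        (IsHol.an hs₀ (chart_mem_atlas (Cm n) a) (hz₀t a)) (hsv a)
    exact h1.comp (hΘ a)
  let L : (Fin N → ℂ) →ₗ[ℂ] (T × (Fin p → Fin h) → ℂ) :=
    Matrix.toLin' (Matrix.of fun (aα : T × (Fin p → Fin h)) (i : Fin N) =>
      Vale.Agent.P299.H908.jet aα.2 0 (f i aα.1.1))
  have hL : ∃ b : Fin N → ℂ, b ≠ 0 ∧ L b = 0 := by
    have h1 : Module.finrank ℂ (T × (Fin p → Fin h) → ℂ) <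
        Module.finrank ℂ (Fin N → ℂ) := by
      simp only [Module.finrank_fintype_fun_eq_card, Fintype.card_prod, Fintype.card_coe,
        Fintype.card_pi_const, Fintype.card_fin]
      exact hcount
    have h2 := LinearMap.ker_ne_bot_of_finrank_lt (f := L) h1
    obtain ⟨b, hb, hb0⟩ := (Submodule.ne_bot_iff _).1 h2
    exact ⟨b, hb0, hb⟩
  obtain ⟨b, hb0, hLb⟩ := hL
  let F : Chart n X → Cm n → ℂ := fun e z => ∑ i, b i * s i e z
  have hF : IsHol c k F := IsHol.sum hs b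
  have hjet : ∀ a ∈ T, ∀ α : Fin p → Fin h, Vale.Agent.P299.H908.jet α 0
      (fun t => F (chartAt (Cm n) a) (Θ a t) / s₀ (chartAt (Cm n) a) (Θ a t)) = 0 := by
    intro a ha α
    have h1 := congrFun hLb (⟨a, ha⟩, α)
    have h2 := Vale.Agent.P299.H908.jet_sum α 0 Finset.univ b (fun i => f i a)
      (fun i _ => hf i a)
    have h3 : (fun t => F (chartAt (Cm n) a) (Θ a t) / s₀ (chartAt (Cm n) a) (Θ a t)) =
        fun t => ∑ i, b i * f i a t := by
      funext t
      simp only [F, f, Finset.sum_div, mul_div_assoc]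
    rw [h3]
    refine h2.trans ?_
    simp only [L, Matrix.toLin'_apply, Matrix.mulVec, dotProduct, Matrix.of_apply,
      Pi.zero_apply] at h1
    rw [← h1]
    exact Finset.sum_congr rfl fun i _ => mul_comm _ _
  have hzero : ∀ e x, At e x → F e (e x) = 0 := by
    refine eq_zero_of_isBigO T r hr hb hcov hc m0 hM hF fun a ha => ⟨z₀ a, hz₀ a, ?_⟩
    set e := chartAt (Cm n) a with he
    have hea : e ∈ atlas (Cm n) X := chart_mem_atlas (Cm n) a
    have h1 := hΘu a (fun z => F e z / s₀ e z) h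
      ((IsHol.an hF hea (hz₀t a)).div (IsHol.an hs₀ hea (hz₀t a)) (hsv a))
      (kernel hσ hs₀ hF hea (fun z hz v hRk => by
        refine hno (m + k) (by omega) (ext σ s₀ F) (ext_hol hσ hs₀ hF) e (e.symm z)
          (At.of_target hea hz) v ?_
        rwa [e.right_inv hz]) (hz₀t a) (hv a) (hsv a)) (hjet a ha)
    have h2 : F e =ᶠ[𝓝 (z₀ a)] fun z => s₀ e z * (F e z / s₀ e z) := by
      filter_upwards [(IsHol.an hs₀ hea (hz₀t a)).continuousAt.eventually_ne (hsv a)] with z hz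
      rw [mul_div_cancel₀ _ hz]
    have h3 : (s₀ e) =O[𝓝 (z₀ a)] fun _ => (1 : ℝ) :=
      (IsHol.an hs₀ hea (hz₀t a)).continuousAt.tendsto.isBigO_one ℝ
    have h4 := h3.mul h1
    refine h2.trans_isBigO (h4.trans ?_)
    simp only [one_mul]
    exact isBigO_refl _ _
  exact hb0 (hLI b hzero)

end

/-- **SG** -/
theorem spec_SG : Spec_SG := by
  intro n hn X _ _ _ _ _ _ c hc a ha H
  have hgood : ∀ p : ℕ, p ≤ n → ∃ m : ℕ, 1 ≤ m ∧ ∃ σ : Fin (p + 1) → Chart n X → Cm n → ℂ,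
      (∀ i, IsHol c m (σ i)) ∧ ∃ e x, At e x ∧ ∃ v, Rk σ e (e x) v := by
    intro p
    induction p with
    | zero =>
      intro _
      obtain ⟨k, hk, N, s, hN, hs, hLI⟩ := H 1
      have hN0 : 0 < N := by
        have hk' : (0 : ℝ) < k := by exact_mod_cast (by omega : 0 < k)
        have h1 : (0 : ℝ) < a * (k : ℝ) ^ n := by positivity
        exact_mod_cast h1.trans_le hN
      refine ⟨k, hk, fun _ => s ⟨0, hN0⟩, fun _ => hs _, ?_⟩
      by_contra h
      push Not at h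
      have h1 := hLI (Pi.single ⟨0, hN0⟩ 1) (fun e x hx => by
        rw [Finset.sum_eq_single ⟨0, hN0⟩]
        · rw [Pi.single_eq_same, one_mul]
          by_contra h2
          refine h e x hx (fun i => i.elim0) ⟨h2, ?_⟩
          rw [Matrix.det_isEmpty]
          exact one_ne_zero
        · intro i _ hi
          rw [Pi.single_eq_of_ne hi, zero_mul]
        · intro h'
          exact absurd (Finset.mem_univ _) h')
      have h2 := congrFun h1 ⟨0, hN0⟩
      rw [Pi.single_eq_same] at h2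
      exact one_ne_zero h2
    | succ p ih =>
      intro hp
      obtain ⟨m, hm, σ, hσ, hR⟩ := ih (by omega)
      exact step hc ha H (by omega) hm hσ hR
  obtain ⟨m, hm, σ, hσ, e, x, hx, v, hv⟩ := hgood n le_rfl
  refine ⟨m, hm, σ, hσ, e, x, hx, hv.1, ?_⟩
  have hq := quo_an hσ hx.1 hx.mem_target hv.1
  have h1 : (Matrix.of fun i j : Fin n => fderiv ℂ (quo σ e) (e x) (v j) i) =
      (Matrix.of fun i j : Fin n => dz j (fun z => σ i.succ e z / σ 0 e z) (e x)) *
        (Matrix.of fun l j : Fin n => v j l) := by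
    ext i j
    rw [Matrix.mul_apply]
    simp only [Matrix.of_apply]
    have hqi : DifferentiableAt ℂ (fun z => σ i.succ e z / σ 0 e z) (e x) :=
      ((analyticAt_pi_iff.1 hq) i).differentiableAt
    have h5 : fderiv ℂ (quo σ e) (e x) = ContinuousLinearMap.pi fun i =>
        fderiv ℂ (fun z => quo σ e z i) (e x) :=
      fderiv_pi fun j => ((analyticAt_pi_iff.1 hq) j).differentiableAt
    rw [h5]
    show fderiv ℂ (fun z => σ i.succ e z / σ 0 e z) (e x) (v j) = _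
    have h6 : v j = ∑ l, v j l • (Pi.single l 1 : Cm n) := by
      ext l
      simp [Finset.sum_apply, Pi.single_apply]
    conv_lhs => rw [h6]
    rw [map_sum]
    refine Finset.sum_congr rfl fun l _ => ?_
    rw [map_smul, smul_eq_mul, Vale.Agent.P272.K.INT.dz_of_holo hqi, mul_comm]
  have h2 := hv.2
  rw [h1, Matrix.det_mul] at h2
  exact left_ne_zero_of_mul h2

end Vale.Agent.P284.H940
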