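import Vale.Agent.P284.H747.Spec
import Vale.Agent.P284.H940.Loc
import Vale.Agent.P272.K.Inv.Chart

/-!
# P284 / H940: rank of the quotients of sections
-/

set_option linter.all false

open Metric Filter Topology Asymptotics Set
open Vale.Agent.P272.K
open scoped Manifold ContDiff

noncomputable section

namespace Vale.Agent.P284.H940

open Vale.Agent.P284.H747

section

variable {n : ℕ} {X : Type*} [TopologicalSpace X] [ChartedSpace (Cm n) X]
  {c : Chart n X → Chart n X → X → ℂ}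

theorem IsHol.an {k : ℕ} {s : Chart n X → Cm n → ℂ} (hs : IsHol c k s) {e : Chart n X}
    (he : e ∈ atlas (Cm n) X) {z : Cm n} (hz : z ∈ e.target) : AnalyticAt ℂ (s e) z := by
  have := hs.holo e (e.symm z) (At.of_target he hz)
  rwa [e.right_inv hz] at this

theorem IsHol.mul {k l : ℕ} {s t : Chart n X → Cm n → ℂ} (hs : IsHol c k s) (ht : IsHol c l t) :
    IsHol c (k + l) fun e z => s e z * t e z where
  holo e x hx := (hs.holo e x hx).mul (ht.holo e x hx)
  change e e' x hx hx' := by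
    rw [← hs.change e e' x hx hx', ← ht.change e e' x hx hx', pow_add]
    ring

theorem IsHol.sum {k N : ℕ} {s : Fin N → Chart n X → Cm n → ℂ} (hs : ∀ i, IsHol c k (s i))
    (b : Fin N → ℂ) : IsHol c k fun e z => ∑ i, b i * s i e z where
  holo e x hx := Finset.analyticAt_fun_sum _ fun i _ => analyticAt_const.mul ((hs i).holo e x hx)
  change e e' x hx hx' := by
    rw [Finset.mul_sum]
    refine Finset.sum_congr rfl fun i _ => ?_
    rw [← (hs i).change e e' x hx hx']
    ring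

/-- the quotients -/
def quo {p : ℕ} (σ : Fin (p + 1) → Chart n X → Cm n → ℂ) (e : Chart n X) (z : Cm n) : Fin p → ℂ :=
  fun i => σ i.succ e z / σ 0 e z

/-- the differentials of the quotients are independent on the span of the `v j` -/
def Rk {p : ℕ} (σ : Fin (p + 1) → Chart n X → Cm n → ℂ) (e : Chart n X) (z : Cm n)
    (v : Fin p → Cm n) : Prop :=
  σ 0 e z ≠ 0 ∧ (Matrix.of fun i j : Fin p => fderiv ℂ (quo σ e) z (v j) i).det ≠ 0

variable {p m : ℕ} {σ : Fin (p + 1) → Chart n X → Cm n → ℂ}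

theorem quo_an (hσ : ∀ i, IsHol c m (σ i)) {e : Chart n X} (he : e ∈ atlas (Cm n) X) {z : Cm n}
    (hz : z ∈ e.target) (h0 : σ 0 e z ≠ 0) : AnalyticAt ℂ (quo σ e) z := by
  rw [analyticAt_pi_iff]
  intro i
  exact (IsHol.an (hσ i.succ) he hz).div (IsHol.an (hσ 0) he hz) h0

/-- an analytic function which is nonzero exactly when the rank condition holds -/
def pf (σ : Fin (p + 1) → Chart n X → Cm n → ℂ) (e : Chart n X) (v : Fin p → Cm n) (z : Cm n) : ℂ :=
  σ 0 e z * (Matrix.of fun i j : Fin p => σ 0 e z * fderiv ℂ (σ i.succ e) z (v j) -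
    σ i.succ e z * fderiv ℂ (σ 0 e) z (v j)).det

theorem fderiv_apply_an {f : Cm n → ℂ} {z : Cm n} (hf : AnalyticAt ℂ f z) (w : Cm n) :
    AnalyticAt ℂ (fun z => fderiv ℂ f z w) z :=
  ((ContinuousLinearMap.apply ℂ ℂ w).analyticAt _).comp hf.fderiv

theorem pf_an (hσ : ∀ i, IsHol c m (σ i)) {e : Chart n X} (he : e ∈ atlas (Cm n) X) {z : Cm n}
    (hz : z ∈ e.target) (v : Fin p → Cm n) : AnalyticAt ℂ (pf σ e v) z := by
  have h := fun i => IsHol.an (hσ i) he hz
  unfold pf
  refine (h 0).mul ?_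
  simp only [Matrix.det_apply', Matrix.of_apply]
  refine Finset.analyticAt_fun_sum _ fun τ _ => analyticAt_const.mul ?_
  refine Finset.analyticAt_fun_prod _ fun i _ => ?_
  exact ((h 0).mul (fderiv_apply_an (h _) _)).sub ((h _).mul (fderiv_apply_an (h 0) _))

theorem pf_ne (hσ : ∀ i, IsHol c m (σ i)) {e : Chart n X} (he : e ∈ atlas (Cm n) X) {z : Cm n}
    (hz : z ∈ e.target) (v : Fin p → Cm n) : pf σ e v z ≠ 0 ↔ Rk σ e z v := by
  unfold pf Rk
  by_cases h0 : σ 0 e z = 0
  · simp [h0]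
  have h := fun i => IsHol.an (hσ i) he hz
  have hq := quo_an hσ he hz h0
  have h1 : ∀ (i : Fin p) (w : Cm n), σ 0 e z * fderiv ℂ (σ i.succ e) z w -
      σ i.succ e z * fderiv ℂ (σ 0 e) z w = σ 0 e z ^ 2 * fderiv ℂ (quo σ e) z w i := by
    intro i w
    have h2 : (fun z => quo σ e z i * σ 0 e z) =ᶠ[𝓝 z] σ i.succ e := by
      filter_upwards [(h 0).continuousAt.eventually_ne h0] with y hy
      exact div_mul_cancel₀ _ hy
    have hqi : DifferentiableAt ℂ (fun z => quo σ e z i) z :=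
      ((analyticAt_pi_iff.1 hq) i).differentiableAt
    have h3 := hqi.hasFDerivAt.mul (h 0).differentiableAt.hasFDerivAt
    have h4 : fderiv ℂ (fun z => quo σ e z i) z w = fderiv ℂ (quo σ e) z w i := by
      have h5 : fderiv ℂ (quo σ e) z = ContinuousLinearMap.pi fun i =>
          fderiv ℂ (fun z => quo σ e z i) z :=
        fderiv_pi fun j => ((analyticAt_pi_iff.1 hq) j).differentiableAt
      rw [h5]
      rfl
    have h5 : fderiv ℂ (fun z => quo σ e z i * σ 0 e z) z = fderiv ℂ (σ i.succ e) z :=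
      h2.fderiv_eq
    rw [← h5]
    have h6 : fderiv ℂ (fun z => quo σ e z i * σ 0 e z) z w =
        quo σ e z i * fderiv ℂ (σ 0 e) z w + σ 0 e z * fderiv ℂ (fun z => quo σ e z i) z w := by
      have h7 : fderiv ℂ (fun z => quo σ e z i * σ 0 e z) z = _ := h3.fderiv
      rw [h7]
      simp
    rw [h6, h4]
    have h7 : quo σ e z i * σ 0 e z = σ i.succ e z := div_mul_cancel₀ _ h0
    rw [← h7]
    ring
  have h2 : (Matrix.of fun i j : Fin p => σ 0 e z * fderiv ℂ (σ i.succ e) z (v j) -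
      σ i.succ e z * fderiv ℂ (σ 0 e) z (v j)) = σ 0 e z ^ 2 •
        (Matrix.of fun i j : Fin p => fderiv ℂ (quo σ e) z (v j) i) := by
    ext i j
    simp only [Matrix.of_apply, Matrix.smul_apply, smul_eq_mul]
    exact h1 i (v j)
  rw [h2, Matrix.det_smul]
  constructor
  · intro h3
    refine ⟨h0, ?_⟩
    intro h4
    apply h3
    rw [h4]
    simp
  · rintro ⟨-, h3⟩
    exact mul_ne_zero h0 (mul_ne_zero (pow_ne_zero _ (pow_ne_zero _ h0)) h3)

/-- the rank condition is open -/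
theorem Rk.eventually (hσ : ∀ i, IsHol c m (σ i)) {e : Chart n X} (he : e ∈ atlas (Cm n) X)
    {z : Cm n} (hz : z ∈ e.target) {v : Fin p → Cm n} (h : Rk σ e z v) :
    ∀ᶠ y in 𝓝 z, Rk σ e y v := by
  have h1 := (pf_ne hσ he hz v).2 h
  filter_upwards [(pf_an hσ he hz v).continuousAt.eventually_ne h1, e.open_target.mem_nhds hz]
    with y hy hy'
  exact (pf_ne hσ he hy' v).1 hy

variable [IsManifold 𝓘(ℂ, Cm n) ω X]

/-- the rank condition does not depend on the chart -/
theorem Rk.transfer (hc : IsCoc c) (hσ : ∀ i, IsHol c m (σ i)) {e e' : Chart n X} {x : X}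
    (hx : At e x) (hx' : At e' x) {v : Fin p → Cm n} (h : Rk σ e (e x) v) :
    ∃ v', Rk σ e' (e' x) v' := by
  have hcn := hc.ne e e' x hx hx'
  have h0' : σ 0 e' (e' x) ≠ 0 := by
    rw [← (hσ 0).change e e' x hx hx']
    exact mul_ne_zero (pow_ne_zero _ hcn) h.1
  let τ : Cm n → Cm n := fun z => e (e'.symm z)
  let τ' : Cm n → Cm n := fun z => e' (e.symm z)
  have hτ : DifferentiableAt ℂ τ (e' x) := transition_differentiableAt hx' hx
  have hτ' : DifferentiableAt ℂ τ' (e x) := transition_differentiableAt hx hx'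
  have hτx : τ (e' x) = e x := by simp only [τ, hx'.left_inv]
  have hτx' : τ' (e x) = e' x := by simp only [τ', hx.left_inv]
  have h1 : ∀ w, fderiv ℂ τ (e' x) (fderiv ℂ τ' (e x) w) = w := by
    intro w
    have h2 : (fun z => τ (τ' z)) =ᶠ[𝓝 (e x)] fun z => z := by
      filter_upwards [hx.nhds_at hx'] with z hz
      simp only [τ, τ']
      rw [hz.2.2.left_inv, e.right_inv hz.1]
    have h3 : fderiv ℂ (fun z => τ (τ' z)) (e x) =
        (fderiv ℂ τ (τ' (e x))).comp (fderiv ℂ τ' (e x)) :=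
      fderiv_comp (𝕜 := ℂ) (g := τ) (f := τ') (e x) (by rw [hτx']; exact hτ) hτ'
    have h4 : fderiv ℂ (fun z => τ (τ' z)) (e x) = fderiv ℂ (fun z : Cm n => z) (e x) :=
      h2.fderiv_eq
    rw [h3, hτx'] at h4
    have h5 := congrArg (fun B : Cm n →L[ℂ] Cm n => B w) h4
    have h6 : fderiv ℂ (fun z : Cm n => z) (e x) = ContinuousLinearMap.id ℂ (Cm n) := fderiv_id
    simpa [h6] using h5
  have h2 : quo σ e' =ᶠ[𝓝 (e' x)] fun z => quo σ e (τ z) := by
    filter_upwards [hx'.nhds_at hx] with z hz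
    funext i
    simp only [quo, τ]
    have h3 := (hσ i.succ).change e e' _ hz.2.2 hz.2.1
    have h4 := (hσ 0).change e e' _ hz.2.2 hz.2.1
    rw [e'.right_inv hz.1] at h3 h4
    rw [← h3, ← h4, mul_div_mul_left]
    exact pow_ne_zero _ (hc.ne e e' _ hz.2.2 hz.2.1)
  have h3 : fderiv ℂ (quo σ e') (e' x) = (fderiv ℂ (quo σ e) (e x)).comp (fderiv ℂ τ (e' x)) := by
    rw [h2.fderiv_eq]
    have h4 := fderiv_comp (𝕜 := ℂ) (g := quo σ e) (f := τ) (e' x)
      (by
        rw [hτx]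
        exact (quo_an hσ hx.1 hx.mem_target h.1).differentiableAt) hτ
    rw [hτx] at h4
    exact h4
  refine ⟨fun j => fderiv ℂ τ' (e x) (v j), h0', ?_⟩
  have h4 := h.2
  simp only [h3, ContinuousLinearMap.comp_apply, h1]
  exact h4

/-- the rank condition holds on a dense set -/
theorem Rk.dense [PreconnectedSpace X] (hc : IsCoc c) (hσ : ∀ i, IsHol c m (σ i))
    {e₀ : Chart n X} {x₀ : X} (hx₀ : At e₀ x₀) {v₀ : Fin p → Cm n} (h : Rk σ e₀ (e₀ x₀) v₀)
    (x : X) {V : Set X} (hV : V ∈ 𝓝 x) :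
    ∃ y ∈ V, ∀ e, At e y → ∃ v, Rk σ e (e y) v := by
  let R : X → Prop := fun y => ∀ e, At e y → ∃ v, Rk σ e (e y) v
  let S : Set X := {x | ∀ᶠ y in 𝓝 x, ¬ R y}
  have hSo : IsOpen S := by
    rw [isOpen_iff_mem_nhds]
    intro y hy
    exact hy.eventually_nhds
  have hSc : IsClosed S := by
    rw [← closure_subset_iff_isClosed]
    intro x hx
    have hex : At (chartAt (Cm n) x : Chart n X) x :=
      ⟨chart_mem_atlas (Cm n) x, mem_chart_source (Cm n) x⟩
    set e := chartAt (Cm n) x with he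
    obtain ⟨r, hr, hb⟩ := Metric.mem_nhds_iff.1 (e.open_target.mem_nhds hex.mem_target)
    have hWo : IsOpen (e.source ∩ e ⁻¹' ball (e x) r) := e.isOpen_inter_preimage isOpen_ball
    have hxW : x ∈ e.source ∩ e ⁻¹' ball (e x) r := ⟨hex.2, mem_ball_self hr⟩
    obtain ⟨y, ⟨hys, hyb⟩, hyS⟩ := mem_closure_iff.1 hx _ hWo hxW
    have h1 : ∀ v, ∀ z ∈ ball (e x) r, pf σ e v z = 0 := by
      intro v
      have h2 : AnalyticOnNhd ℂ (pf σ e v) (ball (e x) r) := fun z hz =>
        pf_an hσ hex.1 (hb hz) v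
      have h3 : pf σ e v =ᶠ[𝓝 (e y)] 0 := by
        have h4 : Tendsto e.symm (𝓝 (e y)) (𝓝 y) := by
          have := (e.continuousAt_symm (e.map_source hys)).tendsto
          rwa [e.left_inv hys] at this
        filter_upwards [h4.eventually hyS, e.open_target.mem_nhds (e.map_source hys)] with z hz hzt
        by_contra h5
        have h6 := (pf_ne hσ hex.1 hzt v).1 h5
        apply hz
        intro e' he'
        have h7 : At e (e.symm z) := At.of_target hex.1 hzt
        refine Rk.transfer hc hσ h7 he' (v := v) ?_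
        rwa [e.right_inv hzt]
      exact h2.eqOn_zero_of_preconnected_of_eventuallyEq_zero
        (convex_ball _ _).isPreconnected hyb h3
    show ∀ᶠ y in 𝓝 x, ¬ R y
    filter_upwards [hWo.mem_nhds hxW] with y' hy' hR
    obtain ⟨v, hv⟩ := hR e ⟨hex.1, hy'.1⟩
    exact (pf_ne hσ hex.1 (hb hy'.2) v).2 hv (h1 v _ hy'.2)
  have hR₀ : R x₀ := fun e he => h.transfer hc hσ hx₀ he
  have hx₀S : x₀ ∉ S := fun h' => (mem_of_mem_nhds (show {y | ¬ R y} ∈ 𝓝 x₀ from h')) hR₀
  have hS : S = ∅ := by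
    rcases isClopen_iff.1 ⟨hSc, hSo⟩ with h1 | h1
    · exact h1
    · exact absurd (h1 ▸ mem_univ x₀) hx₀S
  by_contra h1
  push Not at h1
  have h2 : x ∈ S := by
    show ∀ᶠ y in 𝓝 x, ¬ R y
    filter_upwards [hV] with y hy hR
    obtain ⟨e, he, hv⟩ := h1 y hy
    obtain ⟨v, hv'⟩ := hR e he
    exact hv v hv'
  rw [hS] at h2
  exact h2

end

end Vale.Agent.P284.H940
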